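import Vale.Agent.P181.TB.Defs

set_option autoImplicit false

/-!
# P181, TB, block TB2: matrices of natural numbers with given marginals
-/

namespace Vale.Agent.P181.TB.H761

open Finset

theorem card_fib {γ : Type} [Fintype γ] (r : γ → ℕ) (x : γ) :
    Nat.card {p : Σ x, Fin (r x) // p.1 = x} = r x := by
  have e : {p : Σ x, Fin (r x) // p.1 = x} ≃ Fin (r x) := Equiv.sigmaSubtype x
  rw [Nat.card_congr e, Nat.card_eq_fintype_card, Fintype.card_fin]

theorem sum_fib {α β : Type} [Fintype β] (P : Type) [Fintype P] (f : P → α) (g : P → β) (x : α) :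
    ∑ y, Nat.card {p : P // f p = x ∧ g p = y} = Nat.card {p : P // f p = x} := by
  classical
  have e : {p : P // f p = x} ≃ Σ y : β, {p : P // f p = x ∧ g p = y} :=
    { toFun := fun p => ⟨g p.1, ⟨p.1, p.2, rfl⟩⟩
      invFun := fun q => ⟨q.2.1, q.2.2.1⟩
      left_inv := fun p => rfl
      right_inv := by
        rintro ⟨y, p, h1, h2⟩
        subst h2
        rfl }
  rw [Nat.card_congr e, Nat.card_sigma]

theorem marg_aux : ∀ (α β : Type) [Fintype α] [Fintype β] (r : α → ℕ) (s : β → ℕ),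
  ∑ x, r x = ∑ y, s y →
  ∃ m : α → β → ℕ, (∀ x, ∑ y, m x y = r x) ∧ ∀ y, ∑ x, m x y = s y := by
  classical
  intro α β _ _ r s h
  have hc : Fintype.card (Σ x, Fin (r x)) = Fintype.card (Σ y, Fin (s y)) := by
    rw [Fintype.card_sigma, Fintype.card_sigma]
    simpa using h
  obtain ⟨e⟩ := Fintype.card_eq.1 hc
  refine ⟨fun x y => Nat.card {p : Σ x, Fin (r x) // p.1 = x ∧ (e p).1 = y}, fun x => ?_,
    fun y => ?_⟩
  · rw [sum_fib (Σ x, Fin (r x)) (fun p => p.1) (fun p => (e p).1) x]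
    exact card_fib r x
  · have h1 : ∀ x : α, Nat.card {p : Σ x, Fin (r x) // p.1 = x ∧ (e p).1 = y} =
        Nat.card {p : Σ x, Fin (r x) // (e p).1 = y ∧ p.1 = x} := fun x =>
      Nat.card_congr (Equiv.subtypeEquivRight fun p => and_comm)
    simp_rw [h1]
    rw [sum_fib (Σ x, Fin (r x)) (fun p => (e p).1) (fun p => p.1) y]
    have h2 : {p : Σ x, Fin (r x) // (e p).1 = y} ≃ {q : Σ y, Fin (s y) // q.1 = y} :=
      e.subtypeEquiv (fun p => Iff.rfl)
    rw [Nat.card_congr h2]
    exact card_fib s y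

theorem marg : Marg := marg_aux

end Vale.Agent.P181.TB.H761
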